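import Vale.Agent.P057.R3.Geometry

/-! Counting grid points in the region: a cell of every area below `703/2376`. -/

namespace Vale.Agent.P057.R3

open Finset

/-- Sums of affine functions over the grid points of an interval. -/
theorem affine_sum (α β s t : ℝ) (hs : 0 ≤ s) (hst : s ≤ t) (ht : t ≤ 1) (Q : ℕ) (hQ : 1 ≤ Q) :
    Q * (α * (t - s) + β * (t ^ 2 - s ^ 2) / 2) - (2 * |α| + 6 * |β|) ≤
      ∑ a ∈ Finset.Ico ⌈s * (Q : ℝ)⌉₊ ⌈t * (Q : ℝ)⌉₊, (α + β * ((a : ℝ) / Q)) := by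
  have hQ0 : (0 : ℝ) < Q := by exact_mod_cast hQ
  set A := ⌈s * (Q : ℝ)⌉₊
  set B := ⌈t * (Q : ℝ)⌉₊
  have hAB : A ≤ B := Nat.ceil_mono (mul_le_mul_of_nonneg_right hst hQ0.le)
  have hA1 : s * Q ≤ A := Nat.le_ceil _
  have hA2 : (A : ℝ) < s * Q + 1 := Nat.ceil_lt_add_one (by positivity)
  have hB1 : t * Q ≤ B := Nat.le_ceil _
  have hB2 : (B : ℝ) < t * Q + 1 := Nat.ceil_lt_add_one (by nlinarith)
  have hsum : ∀ n : ℕ, ∑ a ∈ Finset.range n, (α + β * ((a : ℝ) / Q)) =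
      α * n + β / Q * ((n : ℝ) * ((n : ℝ) - 1) / 2) := by
    intro n
    induction n with
    | zero => simp
    | succ k ih => rw [Finset.sum_range_succ, ih]; push_cast; ring
  rw [Finset.sum_Ico_eq_sub _ hAB, hsum, hsum]
  obtain ⟨x, hx, hx0, hx1⟩ : ∃ x : ℝ, (A : ℝ) = s * Q + x ∧ 0 ≤ x ∧ x ≤ 1 :=
    ⟨(A : ℝ) - s * Q, by ring, by linarith, by linarith⟩
  obtain ⟨y, hy, hy0, hy1⟩ : ∃ y : ℝ, (B : ℝ) = t * Q + y ∧ 0 ≤ y ∧ y ≤ 1 :=
    ⟨(B : ℝ) - t * Q, by ring, by linarith, by linarith⟩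
  rw [hx, hy]
  set e := (2 * t * y + (y ^ 2 - y) / Q - t - (2 * s * x + (x ^ 2 - x) / Q - s)) / 2 with he
  have key : α * (t * Q + y) + β / Q * ((t * Q + y) * (t * Q + y - 1) / 2) -
      (α * (s * Q + x) + β / Q * ((s * Q + x) * (s * Q + x - 1) / 2)) =
      Q * (α * (t - s) + β * (t ^ 2 - s ^ 2) / 2) + α * (y - x) + β * e := by
    rw [he]; field_simp; ring
  rw [key]
  have hQ1 : (1 : ℝ) ≤ Q := by exact_mod_cast hQ
  have hsq : ∀ z : ℝ, 0 ≤ z → z ≤ 1 → -1 ≤ (z ^ 2 - z) / Q ∧ (z ^ 2 - z) / Q ≤ 0 := by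
    intro z h0 h1
    constructor
    · rw [le_div_iff₀ hQ0]; nlinarith
    · exact div_nonpos_of_nonpos_of_nonneg (by nlinarith) hQ0.le
  obtain ⟨a1, a2⟩ := hsq x hx0 hx1
  obtain ⟨b1, b2⟩ := hsq y hy0 hy1
  have hty : t * y ≤ 1 := mul_le_one₀ ht hy0 hy1
  have hsx : s * x ≤ 1 := mul_le_one₀ (hst.trans ht) hx0 hx1
  have hty0 : 0 ≤ t * y := mul_nonneg (hs.trans hst) hy0
  have hsx0 : 0 ≤ s * x := mul_nonneg hs hx0
  have he' : |e| ≤ 6 := by rw [he, abs_le]; constructor <;> linarith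
  have h1 : |α * (y - x)| ≤ 2 * |α| := by
    rw [abs_mul, mul_comm 2]
    exact mul_le_mul_of_nonneg_left (by rw [abs_le]; constructor <;> linarith) (abs_nonneg _)
  have h2 : |β * e| ≤ 6 * |β| := by
    rw [abs_mul, mul_comm 6]
    exact mul_le_mul_of_nonneg_left he' (abs_nonneg _)
  linarith [neg_abs_le (α * (y - x)), neg_abs_le (β * e)]

/-- Integers in a real interval. -/
theorem card_Icc_ge (lo hi : ℝ) : hi - lo - 1 ≤ ((Finset.Icc ⌈lo⌉ ⌊hi⌋).card : ℝ) := by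
  rw [Int.card_Icc]
  have h1 := Int.ceil_lt_add_one lo
  have h2 := Int.sub_one_lt_floor hi
  have h3 : ((⌊hi⌋ + 1 - ⌈lo⌉ : ℤ) : ℝ) ≤ (((⌊hi⌋ + 1 - ⌈lo⌉).toNat : ℤ) : ℝ) :=
    Int.cast_le.2 (Int.self_le_toNat _)
  push_cast at h3
  have h4 : (((⌊hi⌋ + 1 - ⌈lo⌉).toNat : ℤ) : ℝ) = ((⌊hi⌋ + 1 - ⌈lo⌉).toNat : ℝ) :=
    Int.cast_natCast _
  linarith

variable (η : ℝ) (Q : ℕ)

/-- The integers `b` with `2 b / Q` within `h` of `m`. -/
noncomputable def ivl (m h : ℝ) : Finset ℤ :=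
  Finset.Icc ⌈(Q : ℝ) * (m - h) / 2⌉ ⌊(Q : ℝ) * (m + h) / 2⌋

/-- The grid points in row `a`. -/
noncomputable def row (a : ℕ) : Finset ℤ :=
  if 2 * (a : ℝ) / Q < 1 - 2 * η then ivl Q 0 (w (2 * a / Q) / 2 - η)
  else if 1 ≤ 2 * (a : ℝ) / Q then
    ivl Q (1 / 2) (p (2 * a / Q - 1) / 2 - η) ∪ ivl Q (3 / 2) (p (2 * a / Q - 1) / 2 - η)
  else ∅

theorem mem_ivl {m h : ℝ} {b : ℤ} [NeZero Q] :
    b ∈ ivl Q m h ↔ |2 * (b : ℝ) / Q - m| ≤ h := by
  have hQ : (0 : ℝ) < Q := by exact_mod_cast NeZero.pos Q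
  unfold ivl
  rw [Finset.mem_Icc, Int.ceil_le, Int.le_floor, abs_le]
  have e : 2 * (b : ℝ) / Q - m = (2 * b - Q * m) / Q := by field_simp
  rw [e, le_div_iff₀ hQ, div_le_iff₀ hQ]
  constructor <;> rintro ⟨h1, h2⟩ <;> constructor <;> linarith

theorem mem_row_spec {η : ℝ} [NeZero Q] {a : ℕ} {b : ℤ} (ha : a < Q) (hb : b ∈ row η Q a) :
    ∃ e : ℤ, Mem η (2 * (a : ℝ) / Q) (2 * (b : ℝ) / Q - e) e := by
  have hQ : (0 : ℝ) < Q := by exact_mod_cast NeZero.pos Q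
  have haQ : 2 * (a : ℝ) / Q < 2 := by
    rw [div_lt_iff₀ hQ]
    have : (a : ℝ) < Q := by exact_mod_cast ha
    linarith
  unfold row at hb
  split_ifs at hb with h1 h2
  · rw [mem_ivl, sub_zero] at hb
    refine ⟨0, Or.inl ⟨by positivity, h1, ?_, rfl⟩⟩
    simpa using hb
  · rcases Finset.mem_union.1 hb with hb | hb <;> rw [mem_ivl] at hb
    · refine ⟨0, Or.inr ⟨h2, haQ, ?_, Or.inl rfl⟩⟩
      simpa using hb
    · refine ⟨1, Or.inr ⟨h2, haQ, ?_, Or.inr rfl⟩⟩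
      rw [show 2 * (b : ℝ) / Q - ((1 : ℤ) : ℝ) - 1 / 2 = 2 * (b : ℝ) / Q - 3 / 2 by push_cast; ring]
      exact hb
  · simp at hb

theorem row_width {η : ℝ} [NeZero Q] (hη : 0 < η) {a : ℕ} {b b' : ℤ} (hb : b ∈ row η Q a)
    (hb' : b' ∈ row η Q a) : |b - b'| < (Q : ℤ) := by
  have hQ : (0 : ℝ) < Q := by exact_mod_cast NeZero.pos Q
  have key : |2 * (b : ℝ) / Q - 2 * (b' : ℝ) / Q| < 2 := by
    have hw := w_le_one (2 * (a : ℝ) / Q)
    have hp := p_le_half (2 * (a : ℝ) / Q - 1)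
    unfold row at hb hb'
    split_ifs at hb hb' with h1 h2
    · rw [mem_ivl, abs_le] at hb hb'
      rw [abs_lt]; constructor <;> linarith
    · rw [Finset.mem_union, mem_ivl, mem_ivl, abs_le, abs_le] at hb hb'
      rw [abs_lt]
      rcases hb with hb | hb <;> rcases hb' with hb' | hb' <;> constructor <;> linarith
    · simp at hb
  rw [← sub_div, ← mul_sub, abs_div, abs_mul, abs_of_pos hQ, abs_two, div_lt_iff₀ hQ] at key
  have : ((|b - b'| : ℤ) : ℝ) < ((Q : ℤ) : ℝ) := by push_cast; linarith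
  exact_mod_cast this

theorem row_card_low {η : ℝ} {a : ℕ} (h : 2 * (a : ℝ) / Q < 1 - 2 * η) :
    (Q : ℝ) * (w (2 * a / Q) / 2 - η) - 1 ≤ (row η Q a).card := by
  rw [row, if_pos h]
  refine le_trans (le_of_eq ?_) (card_Icc_ge _ _)
  ring

theorem row_card_top {η : ℝ} [NeZero Q] (hη : 0 < η) {a : ℕ} (h : 1 ≤ 2 * (a : ℝ) / Q) :
    (Q : ℝ) * (p (2 * a / Q - 1) - 2 * η) - 2 ≤ (row η Q a).card := by
  have hp := p_le_half (2 * (a : ℝ) / Q - 1)
  rw [row, if_neg (by linarith), if_pos h, Finset.card_union_of_disjoint]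
  · push_cast
    unfold ivl
    refine le_trans (le_of_eq ?_) (add_le_add (card_Icc_ge _ _) (card_Icc_ge _ _))
    ring
  · rw [Finset.disjoint_left]
    intro b hb hb'
    rw [mem_ivl, abs_le] at hb hb'
    linarith

/-- The indices `a` with `s ≤ a / Q < t`. -/
noncomputable def seg (s t : ℝ) : Finset ℕ := Finset.Ico ⌈s * (Q : ℝ)⌉₊ ⌈t * (Q : ℝ)⌉₊

theorem mem_seg [NeZero Q] {s t : ℝ} {a : ℕ} (ha : a ∈ seg Q s t) :
    s ≤ (a : ℝ) / Q ∧ (a : ℝ) / Q < t := by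
  have hQ : (0 : ℝ) < Q := by exact_mod_cast NeZero.pos Q
  rw [seg, Finset.mem_Ico, Nat.ceil_le, Nat.lt_ceil] at ha
  exact ⟨(le_div_iff₀ hQ).2 ha.1, (div_lt_iff₀ hQ).2 ha.2⟩

theorem piece {η : ℝ} [NeZero Q] (s t α β E : ℝ) (hs : 0 ≤ s) (hst : s ≤ t) (ht : t ≤ 1)
    (hE : 2 * |α| + 6 * |β| + 2 ≤ E)
    (hrow : ∀ a ∈ seg Q s t, (Q : ℝ) * (α + β * ((a : ℝ) / Q)) - 2 ≤ (row η Q a).card) :
    (Q : ℝ) ^ 2 * (α * (t - s) + β * (t ^ 2 - s ^ 2) / 2) - E * Q ≤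
      ∑ a ∈ seg Q s t, ((row η Q a).card : ℝ) := by
  have hQ1 : 1 ≤ Q := NeZero.pos Q
  have hQ : (0 : ℝ) < Q := by exact_mod_cast NeZero.pos Q
  refine le_trans ?_ (Finset.sum_le_sum hrow)
  rw [Finset.sum_sub_distrib, ← Finset.mul_sum, Finset.sum_const, nsmul_eq_mul]
  have hc : ((seg Q s t).card : ℝ) ≤ Q := by
    have h2 : (seg Q s t).card ≤ ⌈t * (Q : ℝ)⌉₊ := by simp [seg]
    have h3 : ⌈t * (Q : ℝ)⌉₊ ≤ Q := Nat.ceil_le.2 (mul_le_of_le_one_left hQ.le ht)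
    exact_mod_cast h2.trans h3
  have h1 := mul_le_mul_of_nonneg_left (affine_sum α β s t hs hst ht Q hQ1) hQ.le
  have h2 := mul_le_mul_of_nonneg_left hE hQ.le
  unfold seg at hc ⊢
  linarith

theorem low_slope {η : ℝ} [NeZero Q] (hη : 0 < η) (hη1 : η ≤ 1 / 10) :
    (Q : ℝ) ^ 2 * ((1 / 11 - η) * ((1 / 3) - 0) + (27 / 22) * ((1 / 3) ^ 2 - 0 ^ 2) / 2) - 30 * Q ≤
      ∑ a ∈ seg Q 0 (1 / 3), ((row η Q a).card : ℝ) := by
  refine piece Q 0 (1 / 3) (1 / 11 - η) (27 / 22) 30 (by norm_num) (by linarith) (by linarith) ?_ ?_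
  · norm_num
    have : |(1 / 11 - η)| ≤ 4 := by rw [abs_le]; constructor <;> linarith
    norm_num at this
    linarith
  · have e2 : ∀ a : ℕ, 2 * (a : ℝ) / Q = 2 * ((a : ℝ) / Q) := fun a => mul_div_assoc _ _ _
    intro a ha
    obtain ⟨-, h2⟩ := mem_seg Q ha
    have h := row_card_low Q (η := η) (a := a) (by rw [e2]; linarith)
    have hw : w (2 * (a : ℝ) / Q) = 2 / 11 + 27 * (2 * ((a : ℝ) / Q)) / 22 := by
      rw [e2, w, min_eq_right (by linarith)]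
    rw [hw] at h
    linarith

theorem low_flat {η : ℝ} [NeZero Q] (hη : 0 < η) (hη1 : η ≤ 1 / 10) :
    (Q : ℝ) ^ 2 * ((1 / 2 - η) * ((1 / 2 - η) - (1 / 3)) + 0 * ((1 / 2 - η) ^ 2 - (1 / 3) ^ 2) / 2) - 30 * Q ≤
      ∑ a ∈ seg Q (1 / 3) (1 / 2 - η), ((row η Q a).card : ℝ) := by
  refine piece Q (1 / 3) (1 / 2 - η) (1 / 2 - η) 0 30 (by norm_num) (by linarith) (by linarith) ?_ ?_
  · norm_num
    have : |(1 / 2 - η)| ≤ 4 := by rw [abs_le]; constructor <;> linarith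
    norm_num at this
    linarith
  · have e2 : ∀ a : ℕ, 2 * (a : ℝ) / Q = 2 * ((a : ℝ) / Q) := fun a => mul_div_assoc _ _ _
    intro a ha
    obtain ⟨h1, h2⟩ := mem_seg Q ha
    have h := row_card_low Q (η := η) (a := a) (by rw [e2]; linarith)
    have hw : w (2 * (a : ℝ) / Q) = 1 := by
      rw [e2, w, min_eq_left (by linarith)]
    rw [hw] at h
    linarith

theorem top_rise {η : ℝ} [NeZero Q] (hη : 0 < η) (hη1 : η ≤ 1 / 10) :
    (Q : ℝ) ^ 2 * ((-9 / 11 - 2 * η) * ((29 / 54) - (1 / 2)) + (27 / 11) * ((29 / 54) ^ 2 - (1 / 2) ^ 2) / 2) - 30 * Q ≤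
      ∑ a ∈ seg Q (1 / 2) (29 / 54), ((row η Q a).card : ℝ) := by
  refine piece Q (1 / 2) (29 / 54) (-9 / 11 - 2 * η) (27 / 11) 30 (by norm_num) (by linarith) (by linarith) ?_ ?_
  · norm_num
    have : |(-9 / 11 - 2 * η)| ≤ 4 := by rw [abs_le]; constructor <;> linarith
    norm_num at this
    linarith
  · have e2 : ∀ a : ℕ, 2 * (a : ℝ) / Q = 2 * ((a : ℝ) / Q) := fun a => mul_div_assoc _ _ _
    intro a ha
    obtain ⟨h1, h2⟩ := mem_seg Q ha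
    have h := row_card_top Q hη (a := a) (by rw [e2]; linarith)
    have hw : p (2 * (a : ℝ) / Q - 1) = 9 / 22 + 27 * (2 * ((a : ℝ) / Q) - 1) / 22 := by
      rw [e2, p, min_eq_left (a := 9 / 22 + 27 * (2 * ((a : ℝ) / Q) - 1) / 22) (by linarith),
        min_eq_right (by linarith)]
    rw [hw] at h
    linarith

theorem top_flat {η : ℝ} [NeZero Q] (hη : 0 < η) (hη1 : η ≤ 1 / 10) :
    (Q : ℝ) ^ 2 * ((1 / 2 - 2 * η) * ((17 / 27) - (29 / 54)) + 0 * ((17 / 27) ^ 2 - (29 / 54) ^ 2) / 2) - 30 * Q ≤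
      ∑ a ∈ seg Q (29 / 54) (17 / 27), ((row η Q a).card : ℝ) := by
  refine piece Q (29 / 54) (17 / 27) (1 / 2 - 2 * η) 0 30 (by norm_num) (by linarith) (by linarith) ?_ ?_
  · norm_num
    have : |(1 / 2 - 2 * η)| ≤ 4 := by rw [abs_le]; constructor <;> linarith
    norm_num at this
    linarith
  · have e2 : ∀ a : ℕ, 2 * (a : ℝ) / Q = 2 * ((a : ℝ) / Q) := fun a => mul_div_assoc _ _ _
    intro a ha
    obtain ⟨h1, h2⟩ := mem_seg Q ha
    have h := row_card_top Q hη (a := a) (by rw [e2]; linarith)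
    have hw : p (2 * (a : ℝ) / Q - 1) = 1 / 2 := by
      rw [e2, p, min_eq_left (le_min (by linarith) (by linarith))]
    rw [hw] at h
    linarith

theorem top_fall {η : ℝ} [NeZero Q] (hη : 0 < η) (hη1 : η ≤ 1 / 10) :
    (Q : ℝ) ^ 2 * ((45 / 22 - 2 * η) * ((5 / 6) - (17 / 27)) + (-27 / 11) * ((5 / 6) ^ 2 - (17 / 27) ^ 2) / 2) - 30 * Q ≤
      ∑ a ∈ seg Q (17 / 27) (5 / 6), ((row η Q a).card : ℝ) := by
  refine piece Q (17 / 27) (5 / 6) (45 / 22 - 2 * η) (-27 / 11) 30 (by norm_num) (by linarith) (by linarith) ?_ ?_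
  · norm_num
    have : |(45 / 22 - 2 * η)| ≤ 4 := by rw [abs_le]; constructor <;> linarith
    norm_num at this
    linarith
  · have e2 : ∀ a : ℕ, 2 * (a : ℝ) / Q = 2 * ((a : ℝ) / Q) := fun a => mul_div_assoc _ _ _
    intro a ha
    obtain ⟨h1, h2⟩ := mem_seg Q ha
    have h := row_card_top Q hη (a := a) (by rw [e2]; linarith)
    have hw : p (2 * (a : ℝ) / Q - 1) = 9 / 11 - 27 * (2 * ((a : ℝ) / Q) - 1) / 22 := by
      rw [e2, p, min_eq_right (a := 9 / 22 + 27 * (2 * ((a : ℝ) / Q) - 1) / 22) (by linarith),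
        min_eq_right (by linarith)]
    rw [hw] at h
    linarith

theorem total_ge {η : ℝ} [NeZero Q] (hη : 0 < η) (hη1 : η ≤ 1 / 10) :
    (Q : ℝ) ^ 2 * (703 / 2376 - 3 * η) - 150 * Q ≤
      ((∑ a ∈ Finset.range Q, (row η Q a).card : ℕ) : ℝ) := by
  have hQ : (0 : ℝ) < Q := by exact_mod_cast NeZero.pos Q
  have p1 := low_slope Q hη hη1
  have p2 := low_flat Q hη hη1
  have p3 := top_rise Q hη hη1
  have p4 := top_flat Q hη hη1
  have p5 := top_fall Q hη hη1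
  have hsub : seg Q 0 (1 / 3) ∪ seg Q (1 / 3) (1 / 2 - η) ∪ seg Q (1 / 2) (29 / 54) ∪ seg Q (29 / 54) (17 / 27) ∪
      seg Q (17 / 27) (5 / 6) ⊆ Finset.range Q := by
    intro a ha
    rw [Finset.mem_range]
    simp only [Finset.mem_union] at ha
    have : (a : ℝ) / Q < 1 := by
      rcases ha with (((ha | ha) | ha) | ha) | ha <;> linarith [(mem_seg Q ha).2]
    rw [div_lt_one hQ] at this
    exact_mod_cast this
  have hd : ∀ s t s' t' : ℝ, t ≤ s' → Disjoint (seg Q s t) (seg Q s' t') := by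
    intro s t s' t' h
    rw [Finset.disjoint_left]
    intro a ha ha'
    linarith [(mem_seg Q ha).2, (mem_seg Q ha').1]
  have := Finset.sum_le_sum_of_subset_of_nonneg hsub
    (f := fun a => ((row η Q a).card : ℝ)) (fun _ _ _ => Nat.cast_nonneg _)
  rw [Finset.sum_union, Finset.sum_union, Finset.sum_union, Finset.sum_union] at this
  · push_cast
    have hQ2η : 0 ≤ (Q : ℝ) ^ 2 * η := by positivity
    have hQ2η2 : 0 ≤ (Q : ℝ) ^ 2 * η ^ 2 := by positivity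
    linarith
  all_goals
    try simp only [Finset.disjoint_union_left]
    repeat' apply And.intro
    all_goals exact hd _ _ _ _ (by linarith)

/-- The cell. -/
theorem cell (v : ℝ) (hv : v < 703 / 2376) : Cell v := by
  set η : ℝ := min (1 / 10) ((703 / 2376 - v) / 6) with hη'
  have hη : 0 < η := lt_min (by norm_num) (by linarith)
  have hη1 : η ≤ 1 / 10 := min_le_left _ _
  have hη2 : 6 * η ≤ 703 / 2376 - v := by
    have := min_le_right (1 / 10 : ℝ) ((703 / 2376 - v) / 6)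
    rw [← hη'] at this
    linarith
  set F := Real.exp (4 / η * 2) + 1 with hF
  refine ⟨1, F, one_pos, by positivity, ⌈150 / (3 * η)⌉₊ + 1, ?_⟩
  intro Q _ hQ
  classical
  have hQ0 : (0 : ℝ) < Q := by exact_mod_cast NeZero.pos Q
  set G := (Finset.range Q).sigma (fun a => row η Q a)
  set φ : (Σ _ : ℕ, ℤ) → ZMod Q × ZMod Q := fun q => ((q.1 : ZMod Q), (q.2 : ZMod Q)) with hφ
  have hinj : Set.InjOn φ (G : Set (Σ _ : ℕ, ℤ)) := by
    rintro ⟨a, b⟩ hab ⟨a', b'⟩ hab' he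
    simp only [G, Finset.coe_sigma, Set.mem_sigma_iff, Finset.mem_coe, Finset.mem_range] at hab hab'
    simp only [hφ, Prod.mk.injEq] at he
    have ha : a = a' := by
      have := (ZMod.natCast_eq_natCast_iff' a a' Q).1 he.1
      rwa [Nat.mod_eq_of_lt hab.1, Nat.mod_eq_of_lt hab'.1] at this
    subst ha
    have hb := (ZMod.intCast_eq_intCast_iff_dvd_sub b b' Q).1 he.2
    have hlt : |b' - b| < (Q : ℤ) := row_width Q hη hab'.2 hab.2
    have hz := Int.eq_zero_of_abs_lt_dvd hb hlt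
    have : b = b' := by omega
    subst this
    rfl
  have hsel : ∀ q : (Σ _ : ℕ, ℤ), ∃ e : ℤ, q ∈ G →
      Mem η (2 * (q.1 : ℝ) / Q) (2 * (q.2 : ℝ) / Q - e) e := by
    intro q
    by_cases h : q ∈ G
    · rw [Finset.mem_sigma, Finset.mem_range] at h
      obtain ⟨e, he⟩ := mem_row_spec Q h.1 h.2
      exact ⟨e, fun _ => he⟩
    · exact ⟨0, fun h' => absurd h' h⟩
  choose E hE using hsel
  set g : (Σ _ : ℕ, ℤ) → ℝ := fun q => val η (2 * (q.1 : ℝ) / Q) (2 * (q.2 : ℝ) / Q - E q) with hg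
  refine ⟨G.image φ, fun x => g (Function.invFunOn φ (G : Set (Σ _ : ℕ, ℤ)) x), ?_, ?_, ?_⟩
  · rw [Finset.card_image_of_injOn hinj, Finset.card_sigma]
    refine le_trans ?_ (total_ge Q hη hη1)
    have h1 : 150 / (3 * η) ≤ (Q : ℝ) :=
      (Nat.le_ceil _).trans (by exact_mod_cast Nat.le_of_succ_le hQ)
    rw [div_le_iff₀ (by positivity)] at h1
    have h2 := mul_le_mul_of_nonneg_left h1 hQ0.le
    have h3 := mul_le_mul_of_nonneg_left hη2 (sq_nonneg (Q : ℝ))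
    linarith
  · intro x hx
    obtain ⟨q, hq, rfl⟩ := Finset.mem_image.1 hx
    simp only [hinj.leftInvOn_invFunOn hq]
    exact abs_val_le hη (hE q hq)
  · intro x hx y hy z hz hxyz
    obtain ⟨qx, hqx, rfl⟩ := Finset.mem_image.1 hx
    obtain ⟨qy, hqy, rfl⟩ := Finset.mem_image.1 hy
    obtain ⟨qz, hqz, rfl⟩ := Finset.mem_image.1 hz
    simp only [hinj.leftInvOn_invFunOn hqx, hinj.leftInvOn_invFunOn hqy,
      hinj.leftInvOn_invFunOn hqz, one_mul]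
    obtain ⟨ax, bx⟩ := qx
    obtain ⟨ay, byy⟩ := qy
    obtain ⟨az, bz⟩ := qz
    simp only [hφ, Prod.mk_add_mk, Prod.mk.injEq] at hxyz
    have conv : ∀ X Y Z : ℤ, (X : ZMod Q) + Y = Z + Z →
        ∃ k : ℤ, 2 * (Z : ℝ) / Q = (2 * (X : ℝ) / Q + 2 * (Y : ℝ) / Q) / 2 + k := by
      intro X Y Z h
      have h' : ((X + Y : ℤ) : ZMod Q) = ((Z + Z : ℤ) : ZMod Q) := by push_cast; exact h
      obtain ⟨k, hk⟩ := (ZMod.intCast_eq_intCast_iff_dvd_sub _ _ Q).1 h'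
      refine ⟨k, ?_⟩
      have hk' : (Z : ℝ) + Z - (X + Y) = Q * k := by exact_mod_cast hk
      field_simp
      linarith
    obtain ⟨k, hk⟩ := conv ax ay az (by simpa using hxyz.1)
    obtain ⟨j, hj⟩ := conv bx byy bz hxyz.2
    push_cast at hk
    have hgap := gap hη hη1 (hE _ hqx) (hE _ hqy) (hE _ hqz) (j := j) (k := k) hk
      (by simp only; linarith)
    rcases hgap with h | h
    · exact le_trans (nrm_le_half _) (le_trans (by norm_num) h)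
    · refine le_trans (le_trans (b := ((ax : ℝ) / Q - ay / Q) ^ 2 + ((bx : ℝ) / Q - byy / Q) ^ 2)
        ?_ (le_of_eq ?_)) h
      · simpa [hφ] using nrm_sub_le (Q := Q) (ax : ℤ) bx (ay : ℤ) byy
      · push_cast; ring

end Vale.Agent.P057.R3
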