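import Vale.Agent.P057.R3.Defs

/-! From a cell to dense sets of integers without three-term progressions. -/

namespace Vale.Agent.P057.R3

open Finset

/-- A discrete Gaussian sum. -/
theorem gauss_sum_le {Q : ℕ} [NeZero Q] {t : ℝ} (ht : 0 < t) (htQ : t ≤ (Q : ℝ) ^ 2) :
    ∑ z : ZMod Q, Real.exp (-t * ((z.valMinAbs : ℝ) / Q) ^ 2) ≤ 6 * ((Q : ℝ) / Real.sqrt t) := by
  classical
  have hQ : (0 : ℝ) < Q := by exact_mod_cast NeZero.pos Q
  set L := (Q : ℝ) / Real.sqrt t with hL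
  have hst : 0 < Real.sqrt t := Real.sqrt_pos.2 ht
  have hL1 : 1 ≤ L := by
    rw [hL, le_div_iff₀ hst, one_mul, Real.sqrt_le_iff]
    exact ⟨hQ.le, htQ⟩
  have hL0 : 0 < L := by linarith
  set q := Real.exp (-(1 / L)) with hq
  have hq0 : 0 < q := Real.exp_pos _
  have hq1 : q < 1 := Real.exp_lt_one_iff.2 (by have := one_div_pos.2 hL0; linarith)
  have hterm : ∀ z : ZMod Q,
      Real.exp (-t * ((z.valMinAbs : ℝ) / Q) ^ 2) ≤ Real.exp (1 / 4) * q ^ z.valMinAbs.natAbs := by
    intro z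
    rw [hq, ← Real.exp_nat_mul, ← Real.exp_add, Real.exp_le_exp]
    have habs : ((z.valMinAbs.natAbs : ℕ) : ℝ) = |(z.valMinAbs : ℝ)| := by
      rw [Nat.cast_natAbs, Int.cast_abs]
    have e : t * ((z.valMinAbs : ℝ) / Q) ^ 2 = (|(z.valMinAbs : ℝ)| / L) ^ 2 := by
      rw [hL, div_div_eq_mul_div, div_pow, div_pow, mul_pow, Real.sq_sqrt ht.le, sq_abs]
      ring
    rw [habs, neg_mul, e,
      show |(z.valMinAbs : ℝ)| * -(1 / L) = -(|(z.valMinAbs : ℝ)| / L) by ring]
    nlinarith [sq_nonneg (|(z.valMinAbs : ℝ)| / L - 1 / 2)]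
  refine le_trans (Finset.sum_le_sum fun z _ => hterm z) ?_
  rw [← Finset.mul_sum]
  have hfib : ∑ z : ZMod Q, q ^ z.valMinAbs.natAbs ≤ 2 * (1 - q)⁻¹ := by
    rw [← Finset.sum_fiberwise_of_maps_to (g := fun z : ZMod Q => z.valMinAbs.natAbs)
      (t := Finset.range (Q + 1))
      (fun z _ => Finset.mem_range.2 (by have := ZMod.natAbs_valMinAbs_le z; omega))]
    calc ∑ k ∈ Finset.range (Q + 1),
          ∑ z ∈ Finset.univ.filter (fun z : ZMod Q => z.valMinAbs.natAbs = k),
            q ^ z.valMinAbs.natAbs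
        ≤ ∑ k ∈ Finset.range (Q + 1), 2 * q ^ k := by
          refine Finset.sum_le_sum fun k _ => ?_
          rw [Finset.sum_congr rfl (g := fun _ => q ^ k)
            (fun z hz => by rw [(Finset.mem_filter.1 hz).2]), Finset.sum_const, nsmul_eq_mul]
          refine mul_le_mul_of_nonneg_right ?_ (by positivity)
          have hc : (Finset.univ.filter (fun z : ZMod Q => z.valMinAbs.natAbs = k)).card ≤
              ({(k : ℤ), -(k : ℤ)} : Finset ℤ).card := by
            refine Finset.card_le_card_of_injOn (fun z => z.valMinAbs) (fun z hz => ?_)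
              (fun a _ b _ h => ZMod.valMinAbs_inj.1 h)
            simp only [Finset.coe_filter, Set.mem_setOf_eq] at hz
            simp only [Finset.coe_insert, Finset.coe_singleton, Set.mem_insert_iff,
              Set.mem_singleton_iff]
            have := hz.2
            omega
          exact_mod_cast hc.trans Finset.card_le_two
      _ ≤ 2 * (1 - q)⁻¹ := by
          rw [← Finset.mul_sum]
          refine mul_le_mul_of_nonneg_left ?_ (by norm_num)
          rw [← tsum_geometric_of_lt_one hq0.le hq1]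
          exact (summable_geometric_of_lt_one hq0.le hq1).sum_le_tsum _ (fun i _ => by positivity)
  have hgeo : (1 - q)⁻¹ ≤ 2 * L := by
    have h : 1 + 1 / L ≤ Real.exp (1 / L) := by linarith [Real.add_one_le_exp (1 / L)]
    have h2 : q * Real.exp (1 / L) = 1 := by rw [hq, ← Real.exp_add]; simp
    have h3 : q * (L + 1) ≤ L := by
      have := mul_le_mul_of_nonneg_left h (mul_nonneg hq0.le hL0.le)
      have e : q * L * (1 + 1 / L) = q * (L + 1) := by field_simp
      nlinarith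
    rw [inv_le_iff_one_le_mul₀ (by linarith)]
    nlinarith
  have he : Real.exp (1 / 4) ≤ 4 / 3 := by
    have := Real.exp_bound_div_one_sub_of_interval (x := 1 / 4) (by norm_num) (by norm_num)
    norm_num at this ⊢
    linarith
  calc Real.exp (1 / 4) * ∑ z : ZMod Q, q ^ z.valMinAbs.natAbs
      ≤ 4 / 3 * (2 * (2 * L)) := mul_le_mul he (by linarith)
        (Finset.sum_nonneg fun z _ => by positivity) (by norm_num)
    _ ≤ 6 * L := by linarith

/-- Few points of the product torus are close to the origin. -/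
theorem ball_card_le {Q n : ℕ} [NeZero Q] {ρ : ℝ} (hn : 0 < n) (hρ : 0 < ρ)
    (hQ : (n : ℝ) / ρ ≤ (Q : ℝ) ^ 2) :
    ((Finset.univ.filter (fun v : Fin n → ZMod Q × ZMod Q => ∑ i, nrm (v i) ≤ ρ)).card : ℝ) ≤
      (108 * (Q : ℝ) ^ 2 * ρ / n) ^ n := by
  classical
  have hn0 : (0 : ℝ) < n := by exact_mod_cast hn
  set t := (n : ℝ) / ρ with ht
  have ht0 : 0 < t := by positivity
  have hpair : ∑ w : ZMod Q × ZMod Q, Real.exp (-t * nrm w) ≤ 36 * (Q : ℝ) ^ 2 / t := by
    have h := gauss_sum_le ht0 hQ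
    have e : ∑ w : ZMod Q × ZMod Q, Real.exp (-t * nrm w) =
        (∑ z : ZMod Q, Real.exp (-t * ((z.valMinAbs : ℝ) / Q) ^ 2)) *
          ∑ z : ZMod Q, Real.exp (-t * ((z.valMinAbs : ℝ) / Q) ^ 2) := by
      rw [Finset.sum_mul_sum, Fintype.sum_prod_type]
      refine Finset.sum_congr rfl fun a _ => Finset.sum_congr rfl fun b _ => ?_
      rw [← Real.exp_add, nrm, mul_add]
    rw [e]
    refine le_trans (mul_le_mul h h (Finset.sum_nonneg fun z _ => (Real.exp_pos _).le)
      (by positivity)) (le_of_eq ?_)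
    rw [mul_mul_mul_comm, div_mul_div_comm, Real.mul_self_sqrt ht0.le]
    ring
  set T := Finset.univ.filter (fun v : Fin n → ZMod Q × ZMod Q => ∑ i, nrm (v i) ≤ ρ)
  have h1 : (T.card : ℝ) * Real.exp (-(n : ℝ)) ≤ (36 * (Q : ℝ) ^ 2 / t) ^ n := by
    calc (T.card : ℝ) * Real.exp (-(n : ℝ)) = ∑ _v ∈ T, Real.exp (-(n : ℝ)) := by simp
      _ ≤ ∑ v ∈ T, Real.exp (-t * ∑ i, nrm (v i)) := by
          refine Finset.sum_le_sum fun v hv => Real.exp_le_exp.2 ?_
          have hv' := mul_le_mul_of_nonneg_left (Finset.mem_filter.1 hv).2 ht0.le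
          have e : t * ρ = n := by rw [ht]; field_simp
          linarith
      _ ≤ ∑ v : Fin n → ZMod Q × ZMod Q, Real.exp (-t * ∑ i, nrm (v i)) :=
          Finset.sum_le_sum_of_subset_of_nonneg (Finset.subset_univ _)
            (fun _ _ _ => (Real.exp_pos _).le)
      _ = (∑ w : ZMod Q × ZMod Q, Real.exp (-t * nrm w)) ^ n := by
          rw [Fintype.sum_pow]
          refine Finset.sum_congr rfl fun v _ => ?_
          rw [Finset.mul_sum, Real.exp_sum]
      _ ≤ (36 * (Q : ℝ) ^ 2 / t) ^ n :=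
          pow_le_pow_left₀ (Finset.sum_nonneg fun w _ => (Real.exp_pos _).le) hpair n
  have he : Real.exp (n : ℝ) ≤ 3 ^ n := by
    have h3 : Real.exp 1 ≤ 3 := by linarith [Real.exp_one_lt_d9]
    calc Real.exp (n : ℝ) = Real.exp 1 ^ n := by rw [← Real.exp_nat_mul, mul_one]
      _ ≤ 3 ^ n := pow_le_pow_left₀ (Real.exp_pos _).le h3 n
  have h2 : (T.card : ℝ) = (T.card : ℝ) * Real.exp (-(n : ℝ)) * Real.exp (n : ℝ) := by
    rw [mul_assoc, ← Real.exp_add]; simp
  rw [h2]
  refine le_trans (mul_le_mul h1 he (Real.exp_pos _).le (by positivity)) (le_of_eq ?_)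
  rw [← mul_pow]
  congr 1
  rw [ht]
  field_simp
  ring

/-- The sets. -/
theorem exists_dense (v : ℝ) (hv0 : 0 ≤ v) (h : Cell v) :
    ∃ C : ℝ, 0 < C ∧ ∀ N n : ℕ, 0 < N → 0 < n →
      (N : ℝ) * v ^ n * (2 * (N : ℝ)) ^ (-(1 : ℝ) / n) / C ≤ rothNumberNat N := by
  classical
  obtain ⟨c, F, hc, hF, Q₀, hQ₀⟩ := h
  refine ⟨432 * F / c + 2, by positivity, fun N n hN hn => ?_⟩
  have hn0 : (0 : ℝ) < n := by exact_mod_cast hn
  have hN0 : (1 : ℝ) ≤ N := by exact_mod_cast hN
  set x := (2 * (N : ℝ)) ^ (-(1 : ℝ) / n) with hx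
  have hx0 : 0 < x := Real.rpow_pos_of_pos (by positivity) _
  have hx1 : x ≤ 1 := Real.rpow_le_one_of_one_le_of_nonpos (by linarith)
    (div_nonpos_of_nonpos_of_nonneg (by norm_num) hn0.le)
  have hxn : x ^ n * (2 * (N : ℝ)) = 1 := by
    rw [hx, ← Real.rpow_natCast _ n, ← Real.rpow_mul (by positivity), div_mul_cancel₀ _ hn0.ne',
      Real.rpow_neg_one, inv_mul_cancel₀ (by positivity)]
  obtain ⟨Q, hQge, hQp⟩ := Nat.exists_infinite_primes (Q₀ + N + 1 + ⌈108 / x⌉₊)
  haveI : Fact Q.Prime := ⟨hQp⟩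
  haveI : NeZero Q := ⟨hQp.ne_zero⟩
  have hQ0 : (0 : ℝ) < Q := by exact_mod_cast hQp.pos
  have hQx : 108 / x ≤ (Q : ℝ) ^ 2 := by
    have h1 : 108 / x ≤ (Q : ℝ) := (Nat.le_ceil _).trans (by exact_mod_cast (by omega))
    have h2 : (1 : ℝ) ≤ Q := by exact_mod_cast hQp.one_le
    exact h1.trans (by nlinarith)
  obtain ⟨S, f, hSc, hSf, hgap⟩ := hQ₀ Q (by omega)
  set ρ := n * x / 108 with hρ
  have hρ0 : 0 < ρ := by positivity
  set δ := c * ρ / 2 with hδ
  have hδ0 : 0 < δ := by positivity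
  set T := Finset.univ.filter (fun v : Fin n → ZMod Q × ZMod Q => ∑ i, nrm (v i) ≤ ρ) with hT
  have hTc : (T.card : ℝ) ≤ ((Q : ℝ) ^ 2 * x) ^ n := by
    refine (ball_card_le hn hρ0 (le_of_eq_of_le ?_ hQx)).trans (le_of_eq ?_)
    · rw [hρ]; field_simp
    · congr 1; rw [hρ]; field_simp
  have hV : Fintype.card (Fin n → ZMod Q × ZMod Q) = (Q ^ 2) ^ n := by
    rw [Fintype.card_fun, Fintype.card_prod, ZMod.card, Fintype.card_fin, sq]
  -- a multiplier avoiding the ball
  obtain ⟨α, hα⟩ : ∃ α : Fin n → ZMod Q × ZMod Q,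
      ∀ m ∈ Finset.Icc 1 N, (m : ZMod Q) • α ∉ T := by
    by_contra hcon
    push_neg at hcon
    have hsub : (Finset.univ : Finset (Fin n → ZMod Q × ZMod Q)) ⊆
        (Finset.Icc 1 N).biUnion (fun m => T.image (fun w => (m : ZMod Q)⁻¹ • w)) := by
      intro a _
      obtain ⟨m, hm, hmT⟩ := hcon a
      refine Finset.mem_biUnion.2 ⟨m, hm, Finset.mem_image.2 ⟨_, hmT, ?_⟩⟩
      rw [smul_smul, inv_mul_cancel₀, one_smul]
      rw [Ne, ZMod.natCast_eq_zero_iff]
      intro hd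
      rw [Finset.mem_Icc] at hm
      have := Nat.le_of_dvd (by omega) hd
      omega
    have hle : (Q ^ 2) ^ n ≤ N * T.card := by
      rw [← hV, ← Finset.card_univ]
      refine (Finset.card_le_card hsub).trans (Finset.card_biUnion_le.trans ?_)
      refine (Finset.sum_le_sum fun m _ => Finset.card_image_le).trans ?_
      simp
    have hle' : ((Q : ℝ) ^ 2) ^ n ≤ N * (T.card : ℝ) := by exact_mod_cast hle
    have h3 := mul_le_mul_of_nonneg_left hTc (show (0 : ℝ) ≤ 2 * N by positivity)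
    rw [mul_pow] at h3
    have h4 : 2 * (N : ℝ) * (((Q : ℝ) ^ 2) ^ n * x ^ n) = ((Q : ℝ) ^ 2) ^ n := by
      rw [mul_left_comm, mul_comm (2 * (N : ℝ)), hxn, mul_one]
    have hpos : (0 : ℝ) < ((Q : ℝ) ^ 2) ^ n := by positivity
    linarith
  -- a slice of the product
  set Sn := Fintype.piFinset (fun _ : Fin n => S) with hSn
  set Φ : (Fin n → ZMod Q × ZMod Q) → ℝ := fun w => ∑ i, f (w i) with hΦ
  set idx : (Fin n → ZMod Q × ZMod Q) → ℕ := fun w => ⌊(Φ w + n * F) / δ⌋₊ with hidx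
  set R := ⌊2 * n * F / δ⌋₊ + 1 with hR
  have hΦb : ∀ w ∈ Sn, 0 ≤ Φ w + n * F ∧ Φ w + n * F ≤ 2 * n * F := by
    intro w hw
    have h1 : |Φ w| ≤ n * F := by
      refine (Finset.abs_sum_le_sum_abs _ _).trans ?_
      refine (Finset.sum_le_sum fun i _ => hSf _ (Fintype.mem_piFinset.1 hw i)).trans ?_
      simp
    rw [abs_le] at h1
    constructor <;> linarith
  have hmaps : ∀ w ∈ Sn, idx w ∈ Finset.range R := by
    intro w hw
    rw [Finset.mem_range, hR, Nat.lt_succ_iff]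
    exact Nat.floor_le_floor (div_le_div_of_nonneg_right (hΦb w hw).2 hδ0.le)
  obtain ⟨j, hj, hjc⟩ := Finset.exists_le_of_sum_le (s := Finset.range R)
    (f := fun _ => (Sn.card : ℝ) / R)
    (g := fun j => (((Sn.filter (fun w => idx w = j)).card : ℕ) : ℝ))
    ⟨0, Finset.mem_range.2 (by omega)⟩ (by
      rw [Finset.sum_const, Finset.card_range, nsmul_eq_mul,
        mul_div_cancel₀ _ (by exact_mod_cast (show R ≠ 0 by omega))]
      rw [← Nat.cast_sum, ← Finset.card_eq_sum_card_fiberwise hmaps])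
  set Sl := Sn.filter (fun w => idx w = j) with hSl
  -- a translate
  obtain ⟨θ, -, hθ⟩ := Finset.exists_le_of_sum_le
    (s := (Finset.univ : Finset (Fin n → ZMod Q × ZMod Q)))
    (f := fun _ => (N : ℝ) * Sl.card / ((Q : ℝ) ^ 2) ^ n)
    (g := fun θ => ((((Finset.range N).filter (fun i : ℕ => (i : ZMod Q) • α + θ ∈ Sl)).card : ℕ) : ℝ))
    Finset.univ_nonempty (by
      rw [Finset.sum_const, Finset.card_univ, hV, nsmul_eq_mul]
      push_cast
      rw [mul_div_cancel₀ _ (by positivity)]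
      have hdc : ∑ θ : Fin n → ZMod Q × ZMod Q,
          ((Finset.range N).filter (fun i : ℕ => (i : ZMod Q) • α + θ ∈ Sl)).card = N * Sl.card := by
        simp only [Finset.card_filter]
        rw [Finset.sum_comm]
        have : ∀ i : ℕ, (∑ θ : Fin n → ZMod Q × ZMod Q,
            if (i : ZMod Q) • α + θ ∈ Sl then 1 else 0) = Sl.card := by
          intro i
          rw [Fintype.sum_equiv (Equiv.addLeft ((i : ZMod Q) • α))
            (fun θ => if (i : ZMod Q) • α + θ ∈ Sl then 1 else 0)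
            (fun θ => if θ ∈ Sl then 1 else 0) (fun θ => rfl)]
          simp
        simp [this]
      refine le_of_eq ?_
      exact_mod_cast hdc.symm)
  set A := (Finset.range N).filter (fun i : ℕ => (i : ZMod Q) • α + θ ∈ Sl) with hA
  have hfree : ThreeAPFree (A : Set ℕ) := by
    intro a ha b hb d hd habd
    simp only [hA, Finset.coe_filter, Set.mem_setOf_eq, Finset.mem_range] at ha hb hd
    by_contra hne
    have had : a ≠ d := by omega
    set X := (a : ZMod Q) • α + θ with hX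
    set Y := (d : ZMod Q) • α + θ with hY
    set Z := (b : ZMod Q) • α + θ with hZ
    have hsum : X + Y = Z + Z := by
      have e : ((a : ZMod Q) + d) • α = ((b : ZMod Q) + b) • α := by
        rw [← Nat.cast_add, habd, Nat.cast_add]
      rw [add_smul, add_smul] at e
      rw [hX, hY, hZ]
      linear_combination (norm := abel) e
    have hg : c * ∑ i, nrm ((X - Y) i) ≤ Φ X + Φ Y - 2 * Φ Z := by
      simp only [hΦ, Finset.mul_sum, ← Finset.sum_add_distrib, ← Finset.sum_sub_distrib]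
      refine Finset.sum_le_sum fun i _ => ?_
      exact hgap _ (Fintype.mem_piFinset.1 (Finset.mem_filter.1 ha.2).1 i)
        _ (Fintype.mem_piFinset.1 (Finset.mem_filter.1 hd.2).1 i)
        _ (Fintype.mem_piFinset.1 (Finset.mem_filter.1 hb.2).1 i)
        (congrFun hsum i)
    have win : ∀ w ∈ Sl, (j : ℝ) * δ ≤ Φ w + n * F ∧ Φ w + n * F < (j + 1) * δ := by
      intro w hw
      obtain ⟨hw1, hw2⟩ := Finset.mem_filter.1 hw
      have h1 := (Nat.floor_eq_iff (div_nonneg (hΦb w hw1).1 hδ0.le)).1 hw2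
      exact ⟨(le_div_iff₀ hδ0).1 h1.1, (div_lt_iff₀ hδ0).1 h1.2⟩
    obtain ⟨-, hx2⟩ := win X ha.2
    obtain ⟨-, hy2⟩ := win Y hd.2
    obtain ⟨hz1, -⟩ := win Z hb.2
    have hball : X - Y ∈ T := by
      rw [hT, Finset.mem_filter]
      refine ⟨Finset.mem_univ _, ?_⟩
      have h2 : c * ∑ i, nrm ((X - Y) i) ≤ c * ρ := by rw [hδ] at hx2 hy2 hz1; linarith
      exact le_of_mul_le_mul_left h2 hc
    have hsub : ∀ p q : ℕ, q < p → p < N →
        ((p : ZMod Q) • α + θ) - ((q : ZMod Q) • α + θ) ∉ T := by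
      intro p q h1 h2
      rw [add_sub_add_right_eq_sub, ← sub_smul, ← Nat.cast_sub h1.le]
      exact hα _ (Finset.mem_Icc.2 ⟨by omega, by omega⟩)
    rcases lt_or_gt_of_ne had with hlt | hgt
    · apply hsub d a hlt hd.1
      have : Y - X = -(X - Y) := (neg_sub _ _).symm
      rw [show (d : ZMod Q) • α + θ - ((a : ZMod Q) • α + θ) = Y - X from rfl, this]
      rw [hT, Finset.mem_filter] at hball ⊢
      refine ⟨Finset.mem_univ _, ?_⟩
      simpa only [Pi.neg_apply, nrm_neg] using hball.2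
    · exact hsub a d hgt ha.1 hball
  have hA' : A.card ≤ rothNumberNat N :=
    ThreeAPFree.le_rothNumberNat A hfree (fun i hi => Finset.mem_range.1 (Finset.mem_filter.1 hi).1) rfl
  have hA'' : (A.card : ℝ) ≤ rothNumberNat N := by exact_mod_cast hA'
  refine le_trans ?_ hA''
  refine le_trans ?_ hθ
  have hSn' : v ^ n * ((Q : ℝ) ^ 2) ^ n ≤ (Sn.card : ℝ) := by
    rw [hSn, Fintype.card_piFinset, Finset.prod_const, Finset.card_univ, Fintype.card_fin,
      ← mul_pow]
    push_cast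
    exact pow_le_pow_left₀ (by positivity) hSc n
  have hRle : (R : ℝ) * x ≤ 432 * F / c + 2 := by
    have h1 : (R : ℝ) ≤ 2 * n * F / δ + 1 := by
      rw [hR]; push_cast
      linarith [Nat.floor_le (show 0 ≤ 2 * (n : ℝ) * F / δ by positivity)]
    have h2 : 2 * (n : ℝ) * F / δ * x = 432 * F / c := by
      rw [hδ, hρ]; field_simp; ring
    have := mul_le_mul_of_nonneg_right h1 hx0.le
    linarith
  have hR0 : (0 : ℝ) < R := by exact_mod_cast (show 0 < R by omega)
  have hQn : (0 : ℝ) < ((Q : ℝ) ^ 2) ^ n := by positivity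
  rw [div_le_div_iff₀ (by positivity) hQn]
  rw [div_le_iff₀ hR0] at hjc
  calc (N : ℝ) * v ^ n * x * ((Q : ℝ) ^ 2) ^ n = N * x * (v ^ n * ((Q : ℝ) ^ 2) ^ n) := by ring
    _ ≤ N * x * Sn.card := mul_le_mul_of_nonneg_left hSn' (by positivity)
    _ ≤ N * x * ((Sl.card : ℝ) * R) := mul_le_mul_of_nonneg_left hjc (by positivity)
    _ = N * (Sl.card : ℝ) * (R * x) := by ring
    _ ≤ N * (Sl.card : ℝ) * (432 * F / c + 2) := mul_le_mul_of_nonneg_left hRle (by positivity)

end Vale.Agent.P057.R3
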