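import Vale.Agent.P057.R3.Area
import Vale.Agent.P057.R3.Torus

/-! An improved constant in Behrend's lower bound for `r_3(N)`. -/

namespace Vale.Agent.P057.R3

open Filter Real

/-- A cell of proportion `2 ^ (-L)` gives the constant `2 * sqrt L`. -/
theorem bound_of_cell {L C : ℝ} (hL : 0 < L) (hC : 2 * Real.sqrt L < C)
    (h : Cell ((2 : ℝ) ^ (-L))) :
    ∀ᶠ N : ℕ in atTop,
      (N : ℝ) * (2 : ℝ) ^ (-C * Real.sqrt (Real.logb 2 N)) ≤ rothNumberNat N := by
  obtain ⟨K, hK, hb⟩ := exists_dense _ (by positivity) h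
  set r := Real.sqrt L with hr
  have hr0 : 0 < r := Real.sqrt_pos.2 hL
  have hrr : r * r = L := Real.mul_self_sqrt hL.le
  have hd : 0 < C - 2 * r := by linarith
  have ht : Tendsto (fun N : ℕ => Real.sqrt (Real.logb 2 N)) atTop atTop :=
    Real.tendsto_sqrt_atTop.comp
      ((Real.tendsto_logb_atTop one_lt_two).comp tendsto_natCast_atTop_atTop)
  filter_upwards [eventually_ge_atTop 1, ht.eventually_ge_atTop (max (r + 1)
    ((L + 1 + |Real.logb 2 K|) / (C - 2 * r)))] with N hN hs
  set l := Real.logb 2 N with hl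
  set s := Real.sqrt l with hsdef
  have hs1 : r + 1 ≤ s := (le_max_left _ _).trans hs
  have hs2 : L + 1 + |Real.logb 2 K| ≤ (C - 2 * r) * s := by
    have := (le_max_right _ _).trans hs
    rw [div_le_iff₀ hd] at this
    linarith
  have hs0 : 0 < s := by linarith
  have hl0 : 0 ≤ l := Real.logb_nonneg one_lt_two (by exact_mod_cast hN)
  have hss : s * s = l := Real.mul_self_sqrt hl0
  set n := ⌈s / r⌉₊ with hn
  have hn0 : 0 < n := Nat.ceil_pos.2 (by positivity)
  have hn1 : s / r ≤ n := Nat.le_ceil _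
  have hn2 : (n : ℝ) < s / r + 1 := Nat.ceil_lt_add_one (by positivity)
  have hnR : (0 : ℝ) < n := by exact_mod_cast hn0
  have hN0 : (0 : ℝ) < N := by exact_mod_cast hN
  refine le_trans ?_ (hb N n hN hn0)
  have e1 : (((2 : ℝ) ^ (-L)) ^ n) = (2 : ℝ) ^ (-L * n) := by
    rw [← Real.rpow_natCast, ← Real.rpow_mul (by norm_num)]
  have e2 : (2 * (N : ℝ)) ^ (-(1 : ℝ) / n) = (2 : ℝ) ^ ((1 + l) * (-(1 : ℝ) / n)) := by
    rw [Real.rpow_mul (by norm_num), Real.rpow_add (by norm_num), Real.rpow_one, hl,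
      Real.rpow_logb (by norm_num) (by norm_num) hN0]
  have e3 : K = (2 : ℝ) ^ Real.logb 2 K := (Real.rpow_logb (by norm_num) (by norm_num) hK).symm
  rw [e1, e2, e3, mul_assoc, mul_div_assoc, ← Real.rpow_add (by norm_num),
    ← Real.rpow_sub (by norm_num)]
  refine mul_le_mul_of_nonneg_left (Real.rpow_le_rpow_of_exponent_le one_le_two ?_) hN0.le
  have a1 : L * n ≤ r * s + L := by
    have := mul_le_mul_of_nonneg_left hn2.le hL.le
    have e : L * (s / r + 1) = r * s + L := by rw [← hrr]; field_simp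
    linarith
  have a2 : (1 + l) / n ≤ r * s + 1 := by
    rw [div_le_iff₀ hnR]
    have h1 : (r * s + 1) * (s / r) ≤ (r * s + 1) * n := mul_le_mul_of_nonneg_left hn1 (by positivity)
    have h2 : (r * s + 1) * (s / r) = l + s / r := by rw [← hss]; field_simp
    have h3 : 1 ≤ s / r := by rw [le_div_iff₀ hr0]; linarith
    linarith
  have e4 : (1 + l) * (-(1 : ℝ) / n) = -((1 + l) / n) := by ring
  rw [e4]
  linarith [le_abs_self (Real.logb 2 K)]

/-- The improved lower bound for three-term progressions. -/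
theorem rothNumberNat_lower (C : ℝ) (hC : 2 * Real.sqrt (Real.logb 2 (2376 / 703)) < C) :
    ∀ᶠ N : ℕ in atTop,
      (N : ℝ) * (2 : ℝ) ^ (-C * Real.sqrt (Real.logb 2 N)) ≤ rothNumberNat N := by
  set L₀ := Real.logb 2 (2376 / 703) with hL₀
  have h0 : 0 < L₀ := Real.logb_pos one_lt_two (by norm_num)
  have hC0 : 0 ≤ 2 * Real.sqrt L₀ := by positivity
  have hsq : 4 * L₀ < C ^ 2 := by
    have h := mul_self_lt_mul_self hC0 hC
    have e := Real.mul_self_sqrt h0.le
    linarith
  set L := (C ^ 2 / 4 + L₀) / 2 with hL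
  have hL1 : L₀ < L := by linarith
  have hL2 : 2 * Real.sqrt L < C := by
    have h1 : Real.sqrt L < C / 2 := by
      rw [Real.sqrt_lt' (by linarith)]
      linarith
    linarith
  refine bound_of_cell (by linarith) hL2 (cell _ ?_)
  calc (2 : ℝ) ^ (-L) < (2 : ℝ) ^ (-L₀) := Real.rpow_lt_rpow_of_exponent_lt one_lt_two (by linarith)
    _ = 703 / 2376 := by
      rw [Real.rpow_neg (by norm_num), hL₀, Real.rpow_logb (by norm_num) (by norm_num) (by norm_num),
        inv_div]

end Vale.Agent.P057.R3
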