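import Mathlib

/-! Cells: progression-convex subsets of grids in the two-dimensional torus. -/

namespace Vale.Agent.P057.R3

open Finset

/-- Squared torus distance of a grid point to the origin. -/
noncomputable def nrm {Q : ℕ} (w : ZMod Q × ZMod Q) : ℝ :=
  ((w.1.valMinAbs : ℝ) / Q) ^ 2 + ((w.2.valMinAbs : ℝ) / Q) ^ 2

/-- For all large `Q`, at least a proportion `v` of the `Q × Q` grid carries a bounded function
that is uniformly midpoint convex along all solutions of `x + y = 2 z`. -/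
def Cell (v : ℝ) : Prop :=
  ∃ c F : ℝ, 0 < c ∧ 0 < F ∧ ∃ Q₀ : ℕ, ∀ Q : ℕ, [NeZero Q] → Q₀ ≤ Q →
    ∃ S : Finset (ZMod Q × ZMod Q), ∃ f : ZMod Q × ZMod Q → ℝ,
      v * (Q : ℝ) ^ 2 ≤ S.card ∧ (∀ x ∈ S, |f x| ≤ F) ∧
      ∀ x ∈ S, ∀ y ∈ S, ∀ z ∈ S, x + y = z + z → c * nrm (x - y) ≤ f x + f y - 2 * f z

theorem abs_valMinAbs_le_abs {Q : ℕ} [NeZero Q] (b : ℤ) :
    |(((b : ZMod Q).valMinAbs : ℤ) : ℝ)| ≤ |(b : ℝ)| := by
  rcases le_or_gt (2 * b.natAbs) Q with h | h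
  · rcases eq_or_lt_of_le h with h' | h'
    · have := ZMod.natAbs_valMinAbs_le (b : ZMod Q)
      have h2 : ((b : ZMod Q).valMinAbs).natAbs ≤ b.natAbs := by omega
      rw [← Int.cast_abs, ← Int.cast_abs]
      exact_mod_cast (show |(b : ZMod Q).valMinAbs| ≤ |b| by
      rw [Int.abs_eq_natAbs, Int.abs_eq_natAbs]; omega)
    · have : (b : ZMod Q).valMinAbs = b := by
        rw [ZMod.valMinAbs_spec]
        exact ⟨rfl, ⟨by omega, by omega⟩⟩
      rw [this]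
  · have := ZMod.natAbs_valMinAbs_le (b : ZMod Q)
    rw [← Int.cast_abs, ← Int.cast_abs]
    exact_mod_cast (show |(b : ZMod Q).valMinAbs| ≤ |b| by
      rw [Int.abs_eq_natAbs, Int.abs_eq_natAbs]; omega)

theorem nrm_sub_le {Q : ℕ} [NeZero Q] (a b a' b' : ℤ) :
    nrm (((a : ZMod Q), (b : ZMod Q)) - ((a' : ZMod Q), (b' : ZMod Q))) ≤
      ((a : ℝ) / Q - a' / Q) ^ 2 + ((b : ℝ) / Q - b' / Q) ^ 2 := by
  have key : ∀ m m' : ℤ,
      (((((m : ZMod Q) - (m' : ZMod Q)).valMinAbs : ℤ) : ℝ) / Q) ^ 2 ≤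
        ((m : ℝ) / Q - m' / Q) ^ 2 := by
    intro m m'
    rw [← sub_div, div_pow, div_pow]
    refine div_le_div_of_nonneg_right ?_ (by positivity)
    rw [sq_le_sq]
    have h := abs_valMinAbs_le_abs (Q := Q) (m - m')
    push_cast at h
    exact h
  simp only [nrm, Prod.fst_sub, Prod.snd_sub]
  exact add_le_add (key a a') (key b b')

theorem nrm_le_half {Q : ℕ} [NeZero Q] (w : ZMod Q × ZMod Q) : nrm w ≤ 1 / 2 := by
  have key : ∀ a : ZMod Q, ((a.valMinAbs : ℝ) / Q) ^ 2 ≤ 1 / 4 := by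
    intro a
    have h : (0 : ℝ) < Q := by exact_mod_cast NeZero.pos Q
    have h1 : |a.valMinAbs| * 2 ≤ (Q : ℤ) := by
      have := ZMod.natAbs_valMinAbs_le a
      rw [Int.abs_eq_natAbs]
      omega
    have h2 : |(a.valMinAbs : ℝ)| * 2 ≤ (Q : ℝ) := by exact_mod_cast h1
    rw [div_pow, div_le_iff₀ (by positivity)]
    nlinarith [sq_abs (a.valMinAbs : ℝ), abs_nonneg (a.valMinAbs : ℝ)]
  have h1 := key w.1
  have h2 := key w.2
  unfold nrm
  linarith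

theorem nrm_nonneg {Q : ℕ} (w : ZMod Q × ZMod Q) : 0 ≤ nrm w := by
  unfold nrm; positivity

theorem nrm_neg {Q : ℕ} [NeZero Q] (w : ZMod Q × ZMod Q) : nrm (-w) = nrm w := by
  have key : ∀ a : ZMod Q, ((-a).valMinAbs : ℝ) ^ 2 = (a.valMinAbs : ℝ) ^ 2 := by
    intro a
    rw [sq_eq_sq_iff_abs_eq_abs, ← Int.cast_abs, ← Int.cast_abs]
    congr 1
    rw [Int.abs_eq_natAbs, Int.abs_eq_natAbs, ZMod.natAbs_valMinAbs_neg]
  simp only [nrm, Prod.fst_neg, Prod.snd_neg, div_pow, key]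

end Vale.Agent.P057.R3
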