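import Vale.Agent.P057.R3.Defs

/-! The planar region of area `703/2376` and its midpoint convexity. -/

namespace Vale.Agent.P057.R3

/-- Width of the low part at level `a`. -/
noncomputable def w (a : ℝ) : ℝ := min 1 (2 / 11 + 27 * a / 22)

/-- Width of each of the two top parts at level `1 + a`. -/
noncomputable def p (a : ℝ) : ℝ :=
  min (1 / 2) (min (9 / 22 + 27 * a / 22) (9 / 11 - 27 * a / 22))

theorem p_le_rising (a : ℝ) : p a ≤ 9 / 22 + 27 * a / 22 :=
  (min_le_right _ _).trans (min_le_left _ _)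

theorem p_le_falling (a : ℝ) : p a ≤ 9 / 11 - 27 * a / 22 :=
  (min_le_right _ _).trans (min_le_right _ _)

theorem w_le_one (a : ℝ) : w a ≤ 1 := min_le_left _ _

theorem w_concave (a b : ℝ) : (w a + w b) / 2 ≤ w ((a + b) / 2) := by
  have h1 := min_le_left (1 : ℝ) (2 / 11 + 27 * a / 22)
  have h2 := min_le_right (1 : ℝ) (2 / 11 + 27 * a / 22)
  have h3 := min_le_left (1 : ℝ) (2 / 11 + 27 * b / 22)
  have h4 := min_le_right (1 : ℝ) (2 / 11 + 27 * b / 22)
  unfold w
  refine le_min ?_ ?_ <;> linarith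

theorem p_le_half (a : ℝ) : p a ≤ 1 / 2 := by
  exact min_le_left _ _

/-- A point of the region: level `l`, lifted position `u`, half-period tag `e`. -/
def Mem (η l u : ℝ) (e : ℤ) : Prop :=
  (0 ≤ l ∧ l < 1 - 2 * η ∧ |u| ≤ w l / 2 - η ∧ e = 0) ∨
  (1 ≤ l ∧ l < 2 ∧ |u - 1 / 2| ≤ p (l - 1) / 2 - η ∧ (e = 0 ∨ e = 1))

/-- The convex function on the region. -/
noncomputable def val (η l u : ℝ) : ℝ := Real.exp (4 / η * l) + u ^ 2

theorem Mem.range {η l u : ℝ} {e : ℤ} (hη : 0 < η) (h : Mem η l u e) :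
    0 ≤ l ∧ l < 2 ∧ |u| ≤ 3 / 4 := by
  rcases h with ⟨h1, h2, h3, -⟩ | ⟨h1, h2, h3, -⟩
  · exact ⟨h1, by linarith, by linarith [w_le_one l]⟩
  · refine ⟨by linarith, h2, ?_⟩
    have := p_le_half (l - 1)
    rw [abs_le] at h3 ⊢
    constructor <;> linarith

theorem abs_val_le {η l u : ℝ} {e : ℤ} (hη : 0 < η) (h : Mem η l u e) :
    |val η l u| ≤ Real.exp (4 / η * 2) + 1 := by
  obtain ⟨h0, h2, h3⟩ := h.range hη
  have h4 : Real.exp (4 / η * l) ≤ Real.exp (4 / η * 2) :=
    Real.exp_le_exp.2 (mul_le_mul_of_nonneg_left h2.le (by positivity))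
  have h5 := Real.exp_pos (4 / η * l)
  have h6 : u ^ 2 ≤ 1 := by nlinarith [sq_abs u, abs_nonneg u]
  unfold val
  rw [abs_of_nonneg (by positivity)]
  linarith

theorem int_mem_eq_zero {s : ℝ} (n : ℤ) (hn : s = n) (h : |s| < 1) : s = 0 := by
  subst hn
  rw [← Int.cast_abs] at h
  have h' : |n| < 1 := by exact_mod_cast h
  have : n = 0 := abs_eq_zero.1 (le_antisymm (by omega) (abs_nonneg n))
  simp [this]

theorem two_add_sq_le (x : ℝ) : 2 + x ^ 2 ≤ Real.exp x + Real.exp (-x) := by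
  have hs : (x / 2) ^ 2 ≤ Real.sinh (x / 2) ^ 2 := by
    rcases le_total 0 (x / 2) with h | h
    · exact pow_le_pow_left₀ h (Real.self_le_sinh_iff.2 h) 2
    · have := Real.sinh_le_self_iff.2 h
      nlinarith
  have e : Real.exp x + Real.exp (-x) = 4 * Real.sinh (x / 2) ^ 2 + 2 := by
    have e1 : Real.exp x = Real.exp (x / 2) ^ 2 := by rw [sq, ← Real.exp_add]; ring_nf
    have e2 : Real.exp (-x) = Real.exp (-(x / 2)) ^ 2 := by rw [sq, ← Real.exp_add]; ring_nf
    have e3 : Real.exp (x / 2) * Real.exp (-(x / 2)) = 1 := by rw [← Real.exp_add]; simp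
    rw [e1, e2, Real.sinh_eq]
    linear_combination (2 : ℝ) * e3
  nlinarith

/-- No solution has the middle level raised by one. -/
theorem no_raise {η lx ly lz ux uy uz : ℝ} {ex ey ez j : ℤ} (hη : 0 < η)
    (hx : Mem η lx ux ex) (hy : Mem η ly uy ey) (hz : Mem η lz uz ez)
    (hl : lz = (lx + ly) / 2 + 1)
    (hu : uz + ez = (ux + ex + uy + ey) / 2 + j) : False := by
  rcases hz with ⟨-, hz2, -, -⟩ | ⟨-, hz2, hz3, -⟩
  · linarith [(hx.range hη).1, (hy.range hη).1]
  have hz3' : |uz - 1 / 2| ≤ p ((lx + ly) / 2) / 2 - η := by rwa [hl, add_sub_cancel_right] at hz3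
  rw [abs_le] at hz3'
  have hp0 := p_le_half ((lx + ly) / 2)
  have mixed : ∀ {l l' u u' : ℝ} {e : ℤ}, 1 ≤ l → |u - 1 / 2| ≤ p (l - 1) / 2 - η →
      |u'| ≤ w l' / 2 - η → (l + l') / 2 = (lx + ly) / 2 → 0 ≤ l' →
      uz = (u + u') / 2 + ((e : ℤ) : ℝ) / 2 → False := by
    intro l l' u u' e hl1 hu1 hu2 heq hl' hs
    have hp1 := p_le_half (l - 1)
    have hw : w l' ≤ 2 / 11 + 27 * l' / 22 := min_le_right _ _
    have hpa := p_le_rising (l - 1)
    have hpb := p_le_falling ((lx + ly) / 2)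
    rw [abs_le] at hu1 hu2
    -- `e/2` lies strictly between `0` and `1/2`
    have h1 : (0 : ℝ) < (e : ℝ) := by linarith
    have h2 : (e : ℝ) < 1 := by linarith
    have h1' : 0 < e := by exact_mod_cast h1
    have h2' : e < 1 := by exact_mod_cast h2
    omega
  rcases hx with ⟨hx1, -, hx3, hxe⟩ | ⟨hx1, -, hx3, -⟩ <;>
    rcases hy with ⟨hy1, -, hy3, hye⟩ | ⟨hy1, -, hy3, -⟩
  · -- both low
    subst hxe hye
    push_cast at hu
    have hw := w_concave lx ly
    have hpw : p ((lx + ly) / 2) ≤ 1 - w ((lx + ly) / 2) := by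
      have h1 : w ((lx + ly) / 2) ≤ 2 / 11 + 27 * ((lx + ly) / 2) / 22 := min_le_right _ _
      have h2 := p_le_falling ((lx + ly) / 2)
      linarith
    rw [abs_le] at hx3 hy3
    have h1 : (0 : ℝ) < ((j - ez : ℤ) : ℝ) := by push_cast; linarith
    have h2 : ((j - ez : ℤ) : ℝ) < 1 := by push_cast; linarith
    have h1' : (0 : ℤ) < j - ez := by exact_mod_cast h1
    have h2' : j - ez < 1 := by exact_mod_cast h2
    omega
  · subst hxe
    exact mixed (e := ey + 2 * j - 2 * ez) hy1 hy3 hx3 (by ring) hx1 (by push_cast at hu ⊢; linarith)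
  · subst hye
    exact mixed (e := ex + 2 * j - 2 * ez) hx1 hx3 hy3 rfl hy1 (by push_cast at hu ⊢; linarith)
  · linarith

/-- Midpoint convexity along all solutions of `x + y ≡ 2 z` on the region. -/
theorem gap {η lx ly lz ux uy uz : ℝ} {ex ey ez j k : ℤ} (hη : 0 < η) (hη1 : η ≤ 1 / 10)
    (hx : Mem η lx ux ex) (hy : Mem η ly uy ey) (hz : Mem η lz uz ez)
    (hl : lz = (lx + ly) / 2 + k)
    (hu : uz + ez = (ux + ex + uy + ey) / 2 + j) :
    (1 ≤ val η lx ux + val η ly uy - 2 * val η lz uz) ∨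
    (((lx - ly) / 2) ^ 2 + ((ux + ex - (uy + ey)) / 2) ^ 2 ≤
      val η lx ux + val η ly uy - 2 * val η lz uz) := by
  obtain ⟨hx0, hx2, hxu⟩ := hx.range hη
  obtain ⟨hy0, hy2, hyu⟩ := hy.range hη
  obtain ⟨hz0, hz2, hzu⟩ := hz.range hη
  have hk2 : k < 2 := by exact_mod_cast (show (k : ℝ) < (2 : ℤ) by push_cast; linarith)
  have hk1 : k ≠ 1 := by
    rintro rfl
    exact no_raise hη hx hy hz (by rw [hl]; norm_num) hu
  set K := 4 / η with hK
  have hK0 : 0 < K := by positivity
  have hKη : K * η = 4 := by rw [hK]; field_simp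
  have hK40 : 40 ≤ K := by rw [hK, le_div_iff₀ hη]; linarith
  set m := (lx + ly) / 2 with hm
  set t := K * ((lx - ly) / 2) with ht
  have hm0 : 1 ≤ Real.exp (K * m) := Real.one_le_exp (mul_nonneg hK0.le (by linarith))
  have hsum : Real.exp (K * lx) + Real.exp (K * ly) =
      Real.exp (K * m) * (Real.exp t + Real.exp (-t)) := by
    rw [mul_add, ← Real.exp_add, ← Real.exp_add, hm, ht]
    ring_nf
  have hcosh := two_add_sq_le t
  have hzsq : uz ^ 2 ≤ 9 / 16 := by nlinarith [sq_abs uz, abs_nonneg uz]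
  rcases lt_or_eq_of_le (show k ≤ 0 by omega) with hneg | rfl
  · left
    have hk' : (k : ℝ) ≤ -1 := by exact_mod_cast (show k ≤ -1 by omega)
    have hEz := Real.one_le_exp (mul_nonneg hK0.le hz0)
    have hstep : Real.exp (K * lz) * Real.exp K ≤ Real.exp (K * m) := by
      rw [← Real.exp_add]
      apply Real.exp_le_exp.2
      have : K * k ≤ K * (-1) := mul_le_mul_of_nonneg_left hk' hK0.le
      rw [hl]
      linarith
    have hexpK : K + 1 ≤ Real.exp K := Real.add_one_le_exp K
    have h3 : 2 * Real.exp (K * m) ≤ Real.exp (K * lx) + Real.exp (K * ly) := by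
      rw [hsum, mul_comm 2]
      exact mul_le_mul_of_nonneg_left (by linarith [sq_nonneg t]) (Real.exp_pos _).le
    have h4 : Real.exp (K * lz) * (K + 1) ≤ Real.exp (K * lz) * Real.exp K :=
      mul_le_mul_of_nonneg_left hexpK (Real.exp_pos _).le
    have h5 : 1 * K ≤ Real.exp (K * lz) * K := mul_le_mul_of_nonneg_right hEz hK0.le
    simp only [val, ← hK]
    linarith [sq_nonneg ux, sq_nonneg uy]
  · have hlz : lz = m := by rw [hl]; simp
    subst hlz
    have hg : t ^ 2 ≤ Real.exp (K * lx) + Real.exp (K * ly) - 2 * Real.exp (K * m) := by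
      rw [hsum]
      have h1 := mul_le_mul_of_nonneg_left hcosh (Real.exp_pos (K * m)).le
      have h2 := mul_le_mul_of_nonneg_right hm0 (sq_nonneg t)
      linarith
    by_cases hd : η ≤ |lx - ly|
    · left
      have ht2 : 4 ≤ t ^ 2 := by
        have h1 : η ^ 2 ≤ (lx - ly) ^ 2 := by
          nlinarith [sq_abs (lx - ly), abs_nonneg (lx - ly)]
        have h2 : K ^ 2 * η ^ 2 ≤ K ^ 2 * (lx - ly) ^ 2 :=
          mul_le_mul_of_nonneg_left h1 (sq_nonneg K)
        have h3 : t ^ 2 = K ^ 2 * (lx - ly) ^ 2 / 4 := by rw [ht]; ring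
        have h4 : K ^ 2 * η ^ 2 = 16 := by rw [← mul_pow, hKη]; norm_num
        linarith
      simp only [val, ← hK]
      linarith [sq_nonneg ux, sq_nonneg uy]
    · right
      rw [not_le, abs_lt] at hd
      have key : uz = (ux + uy) / 2 ∧ ex = ey := by
        rcases hx with ⟨-, hx4, hx3, hxe⟩ | ⟨hx4, -, hx3, hxe⟩ <;>
          rcases hy with ⟨-, hy4, hy3, hye⟩ | ⟨hy4, -, hy3, hye⟩
        · rcases hz with ⟨-, -, hz3, hze⟩ | ⟨hz4, -, -, -⟩
          · subst hxe hye hze
            push_cast at hu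
            have h1 : |uz - (ux + uy) / 2| < 1 := by
              rw [abs_le] at hx3 hy3 hz3
              rw [abs_lt]
              constructor <;> linarith [w_le_one lx, w_le_one ly, w_le_one m]
            have := int_mem_eq_zero j (by linarith) h1
            exact ⟨by linarith, rfl⟩
          · exact absurd hz4 (by linarith)
        · exact absurd hy4 (by linarith)
        · exact absurd hx4 (by linarith)
        · rcases hz with ⟨-, hz4, -, -⟩ | ⟨-, -, hz3, hze⟩
          · exact absurd hz4 (by linarith)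
          · have h1 : |2 * (uz - (ux + uy) / 2)| < 1 := by
              rw [abs_le] at hx3 hy3 hz3
              rw [abs_lt]
              constructor <;>
                linarith [p_le_half (lx - 1), p_le_half (ly - 1), p_le_half (m - 1)]
            have h2 := int_mem_eq_zero (ex + ey + 2 * j - 2 * ez) (by push_cast; linarith) h1
            have h3 : ((ex + ey + 2 * j - 2 * ez : ℤ) : ℝ) = ((0 : ℤ) : ℝ) := by
              push_cast; linarith
            have h4 : ex + ey + 2 * j - 2 * ez = 0 := by exact_mod_cast h3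
            exact ⟨by linarith, by omega⟩
      obtain ⟨hmid, hee⟩ := key
      subst hee
      have hK1 : ((lx - ly) / 2) ^ 2 ≤ t ^ 2 := by
        rw [ht, mul_pow]
        exact le_mul_of_one_le_left (sq_nonneg _) (by nlinarith)
      simp only [val, ← hK]
      rw [hmid]
      linarith [sq_nonneg (ux - uy)]

end Vale.Agent.P057.R3
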